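import Vale.Agent.P225.YDefs
import Vale.Agent.P225.Bdl.B5

namespace Vale.Agent.Results.P225.YauFails

open Vale.Agent.P225

/-- Yau's dimension comparison is false: there is a complete Riemannian metric of nonnegative
Ricci curvature on `ℝ⁴²` and a degree `k` such that the space of harmonic functions of growth
of order at most `k` has a larger dimension than the one of the Euclidean space. -/
theorem result :
    ∃ g : RMetric 42, g.Complete ∧ g.RicciNonneg ∧ ∃ k : ℕ, 1 ≤ k ∧
      ∃ v : Fin ((42 + k - 1).choose k + (42 + k - 2).choose (k - 1) + 1) → (Rn 42 → ℝ),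
        LinearIndependent ℝ v ∧ ∀ i, v i ∈ g.harm k :=
  B5.final20

end Vale.Agent.Results.P225.YauFails
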